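import Vale.Agent.P297.Bdl.B1

open CategoryTheory AlgebraicGeometry Vale.Agent.P297

namespace Vale.Agent.Results.P297.DihedralFamily

theorem result {κ c : ℂ} (hκ : κ ≠ -1) (hκc : κ ≠ c)
    {N : Type} [Field N] [Algebra ℂ N] {s t z w : N}
    (hst : AlgebraicIndependent ℂ ![s, t])
    (hz : z ^ 2 = gg c s * Phi κ s t) (hw : w ^ 2 = gg c t * Phi κ s t)
    {S : Scheme.{0}} [IsIntegral S] (f : S ⟶ Spec (.of ℂ)) [IsProper f]
    (hS : IsFunctionFieldOf f (IntermediateField.adjoin ℂ {s + t, s * t, z + w, z * w}))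
    (x y : ClosedPt S) : RatEquiv f x y :=
  dihedral_one hκ hκc hst hz hw f hS x y

end Vale.Agent.Results.P297.DihedralFamily
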